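import Vale.Agent.P110.H628.Final

/-! # P110: exponentially many flat Littlewood polynomials of every large length -/

open Finset Filter Topology

namespace Vale.Agent.Results.P110.ExponentiallyMany

/-- The Littlewood polynomial `∑_{k<N} a_k z^k` of length `N` with signs `a`, at the point `z`. -/
noncomputable def littlewood {N : ℕ} (a : Fin N → ℤˣ) (z : ℂ) : ℂ :=
  ∑ k : Fin N, ((a k : ℤ) : ℂ) * z ^ (k : ℕ)

/-- The sign sequence `a` is `c`-flat: `(1-c)√N ≤ |P(z)| ≤ (1+c)√N` on the whole unit circle. -/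
def IsFlat (c : ℝ) {N : ℕ} (a : Fin N → ℤˣ) : Prop :=
  ∀ z : ℂ, ‖z‖ = 1 →
    (1 - c) * √(N : ℝ) ≤ ‖littlewood a z‖ ∧ ‖littlewood a z‖ ≤ (1 + c) * √(N : ℝ)

/-- A sequence of Littlewood polynomials of lengths `N n` is ultraflat: the lengths tend to
infinity and `| |P_n(z)| / √(N n) - 1 |` tends to `0` uniformly on `|z| = 1`. -/
def IsUltraflat (N : ℕ → ℕ) (a : (n : ℕ) → Fin (N n) → ℤˣ) : Prop :=
  Tendsto N atTop atTop ∧ ∀ c : ℝ, 0 < c → ∃ n₀ : ℕ, ∀ n : ℕ, n₀ ≤ n →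
    ∀ z : ℂ, ‖z‖ = 1 → |‖littlewood (a n) z‖ / √(N n : ℝ) - 1| ≤ c

/-- **Good codes of flat Littlewood polynomials.** Let `0 < c ≤ 1` and `κ = c^8 / 10^60`. For every
large length `N` there is a set `C` of at least `exp (κ N)` sign sequences of length `N` which are
all `c`-flat, any two different ones of which differ in at least `κ² N` places, and whose
aperiodic autocorrelations satisfy `∑_{1 ≤ k < N} C_k² ≤ 15 c N²`. Moreover there is an ultraflat
sequence with one Littlewood polynomial of each length. -/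
theorem result :
    (∀ c : ℝ, 0 < c → c ≤ 1 → ∃ N₀ : ℕ, ∀ N : ℕ, N₀ ≤ N → ∃ C : Finset (Fin N → ℤˣ),
      Real.exp (c ^ 8 / 10 ^ 60 * N) ≤ C.card ∧
      (∀ a ∈ C, IsFlat c a) ∧
      (∀ a ∈ C, ∀ b ∈ C, a ≠ b → (c ^ 8 / 10 ^ 60) ^ 2 * N ≤ (hammingDist a b : ℝ)) ∧
      (∀ a ∈ C, ∑ k ∈ Ico 1 N, ((Vale.Agent.P110.acf a k : ℤ) : ℝ) ^ 2 ≤ 15 * c * (N : ℝ) ^ 2)) ∧
    ∃ a : (n : ℕ) → Fin n → ℤˣ, IsUltraflat (fun n => n) a := by
  constructor
  · intro c hc hc1
    obtain ⟨N₀, h⟩ := Vale.Agent.P110.H628.code_units c hc hc1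
    refine ⟨N₀, fun N hN => ?_⟩
    obtain ⟨C, hC1, hC2, hC3⟩ := h N hN
    exact ⟨C, hC1, hC2, hC3, fun a ha =>
      Vale.Agent.P110.H628.acf_le c hc hc1 a fun z hz => (hC2 a ha z hz).2⟩
  · -- choose for every length the flattest Littlewood polynomial
    have hflat : ∀ c : ℝ, 0 < c → ∃ N₀ : ℕ, ∀ N : ℕ, N₀ ≤ N → ∃ a : Fin N → ℤˣ,
        ∀ z : ℂ, ‖z‖ = 1 →
        (1 - c) * √(N : ℝ) ≤ ‖littlewood a z‖ ∧ ‖littlewood a z‖ ≤ (1 + c) * √(N : ℝ) :=
      Vale.Agent.P110.ultraflat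
    let f : (n : ℕ) → (Fin n → ℤˣ) → Metric.sphere (0 : ℂ) 1 → ℝ :=
      fun n a z => |‖littlewood a z‖ / √(n : ℝ) - 1|
    have hne : Nonempty (Metric.sphere (0 : ℂ) 1) := ⟨⟨1, by simp⟩⟩
    have hbdd : ∀ (n : ℕ) (a : Fin n → ℤˣ), BddAbove (Set.range (f n a)) := by
      intro n a
      apply IsCompact.bddAbove
      apply isCompact_range
      have h1 : Continuous fun z : ℂ => littlewood a z := by
        unfold littlewood
        fun_prop
      have h2 : Continuous fun z : Metric.sphere (0 : ℂ) 1 => littlewood a (z : ℂ) :=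
        h1.comp continuous_subtype_val
      exact ((h2.norm.div_const _).sub continuous_const).abs
    have hmin : ∀ n : ℕ, ∃ a : Fin n → ℤˣ, ∀ b : Fin n → ℤˣ, (⨆ z, f n a z) ≤ ⨆ z, f n b z :=
      fun n => Finite.exists_min fun b : Fin n → ℤˣ => ⨆ z, f n b z
    choose a ha using hmin
    refine ⟨a, tendsto_id, ?_⟩
    intro c hc
    obtain ⟨N₀, h⟩ := hflat c hc
    refine ⟨N₀ + 1, fun n hn z hz => ?_⟩
    obtain ⟨b, hb⟩ := h n (by omega)
    have hs : 0 < √(n : ℝ) := Real.sqrt_pos.2 (by exact_mod_cast (by omega : 0 < n))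
    have h1 : (⨆ z, f n b z) ≤ c := by
      apply ciSup_le
      rintro ⟨w, hw⟩
      have hw' : ‖w‖ = 1 := by simpa using hw
      obtain ⟨h3, h4⟩ := hb w hw'
      change |‖littlewood b w‖ / √(n : ℝ) - 1| ≤ c
      rw [abs_le]
      constructor
      · have : (1 - c) ≤ ‖littlewood b w‖ / √(n : ℝ) := by
          rw [le_div_iff₀ hs]
          exact h3
        linarith
      · have : ‖littlewood b w‖ / √(n : ℝ) ≤ 1 + c := by
          rw [div_le_iff₀ hs]
          exact h4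
        linarith
    exact (le_ciSup (hbdd n (a n)) ⟨z, by simpa using hz⟩).trans ((ha n b).trans h1)

end Vale.Agent.Results.P110.ExponentiallyMany
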