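import Vale.Agent.P110.H880.Defs
import Vale.Agent.P110.H880.Main

open Finset

namespace Vale.Agent.Results.P110.UltraflatMerit

open Vale.Agent.P110

/-- For every `c > 0` and every large length `N` there is ONE sign sequence `a` of length `N` whose
Littlewood polynomial has modulus between `(1-c)√N` and `(1+c)√N` on the unit circle, whose
aperiodic autocorrelations satisfy `∑_{1 ≤ k < N} C_k² ≤ c N²` (merit factor at least `1/(2c)`), and
whose Mahler measure is at least `(1-c)√N`. -/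
theorem result (c : ℝ) (hc : 0 < c) : ∃ N₀ : ℕ, ∀ N : ℕ, N₀ ≤ N → ∃ a : Fin N → ℤˣ,
    (∀ z : ℂ, ‖z‖ = 1 → (1 - c) * √(N : ℝ) ≤ ‖(lw a).eval z‖ ∧
      ‖(lw a).eval z‖ ≤ (1 + c) * √(N : ℝ)) ∧
    ∑ k ∈ Ico 1 N, ((acf a k : ℤ) : ℝ) ^ 2 ≤ c * (N : ℝ) ^ 2 ∧
    (1 - c) * √(N : ℝ) ≤ (lw a).mahlerMeasure :=
  H880.flat_all c hc

end Vale.Agent.Results.P110.UltraflatMerit
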